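import Vale.Agent.Lib.P279.Chain

namespace Vale.Agent.Lib.P279.R11

def steps : List Step := [
  ⟨(-1,-1),(-1,0),[(0,-1,0),(1,0,521),(1,1,746),(-1,0,0)],
   [⟨[1],[],[],[],1,0,0,0,0,0,0,0⟩,⟨[],[1],[0,1],[],1,1,0,0,0,0,-1,0⟩,⟨[0,1],[],[],[],1,0,0,0,0,0,0,0⟩,⟨[0,0,1],[],[],[],1,0,0,0,0,0,0,0⟩]⟩,
  ⟨(-1,-1),(-1,0),[(0,-1,0),(2,1,1042),(1,1,746),(-1,0,0)],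
   [⟨[1],[],[],[],1,0,0,0,0,0,0,0⟩,⟨[],[0,1],[0,0,1],[],1,1,0,0,0,0,0,0⟩,⟨[0,0,1],[],[],[],1,0,0,0,0,0,0,0⟩,⟨[0,0,0,1],[],[],[],1,0,0,0,0,0,0,0⟩]⟩,
  ⟨(-1,-1),(-1,0),[(0,-1,0),(3,2,1563),(1,1,746),(-1,0,0)],
   [⟨[1],[],[],[],1,0,0,0,0,0,0,0⟩,⟨[],[0,1],[0,0,1],[],1,1,0,0,0,0,1,0⟩,⟨[0,0,1],[],[],[],1,0,0,0,0,0,0,0⟩,⟨[0,0,0,1],[],[],[],1,0,0,0,0,0,0,0⟩]⟩,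
  ⟨(-1,-1),(-1,0),[(0,-1,0),(4,3,2084),(5,4,2676),(-1,0,0)],
   [⟨[1],[],[],[],1,0,0,0,0,0,0,0⟩,⟨[],[0,1],[0,0,1],[],1,1,0,0,0,0,2,0⟩,⟨[],[0,1],[0,1],[0,0,0,1],1,1,1,0,0,0,2,0⟩,⟨[0,0,0,1],[],[],[],1,0,0,0,0,0,0,0⟩]⟩,
  ⟨(-1,-1),(1,0),[(0,-1,0),(4,3,2084),(5,4,2676),(1,4,1776),(-1,0,0)],
   [⟨[1],[],[],[],1,0,0,0,0,0,0,0⟩,⟨[0,1],[],[],[],1,0,0,0,0,0,0,0⟩,⟨[0,0,1],[],[],[],1,0,0,0,0,0,0,0⟩,⟨[],[0,0,0,3],[0,0,0,1],[0,0,1],1,3,1,0,0,0,0,-4⟩,⟨[0,0,0,1],[],[],[],1,0,0,0,0,0,0,0⟩]⟩,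
  ⟨(0,-1),(1,0),[(0,-1,0),(4,3,2084),(5,4,2676),(-3,4,876),(-1,0,0)],
   [⟨[1],[],[],[],1,0,0,0,0,0,0,0⟩,⟨[0,1],[],[],[],1,0,0,0,0,0,0,0⟩,⟨[0,0,1],[],[],[],1,0,0,0,0,0,0,0⟩,⟨[],[0,0,0,0,3],[0,0,0,0,1],[0,0,0,1],1,3,1,0,0,0,0,-4⟩,⟨[0,0,0,0,1],[],[],[],1,0,0,0,0,0,0,0⟩]⟩,
  ⟨(0,1),(1,0),[(-1,-1,-225),(0,-1,0),(4,3,2084),(5,4,2676),(-3,4,876),(-3,1,201)],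
   [⟨[],[0,0,0,0,1],[1],[],1,1,0,0,0,0,0,0⟩,⟨[1],[],[],[],1,0,0,0,0,0,0,0⟩,⟨[0,1],[],[],[],1,0,0,0,0,0,0,0⟩,⟨[0,0,1],[],[],[],1,0,0,0,0,0,0,0⟩,⟨[0,0,0,1],[],[],[],1,0,0,0,0,0,0,0⟩,⟨[],[0,0,0,1],[3],[],1,3,0,0,0,0,-4,0⟩]⟩,
  ⟨(0,1),(1,0),[(-3,-2,-474),(-1,-2,-450),(0,-1,0),(4,3,2084),(5,4,2676),(-3,4,876)],
   [⟨[],[0,0,0,0,0,1],[0,3],[],1,3,0,0,0,0,-1,0⟩,⟨[],[1],[0,1],[],1,1,0,0,0,0,1,0⟩,⟨[0,1],[],[],[],1,0,0,0,0,0,0,0⟩,⟨[0,0,1],[],[],[],1,0,0,0,0,0,0,0⟩,⟨[0,0,0,1],[],[],[],1,0,0,0,0,0,0,0⟩,⟨[0,0,0,0,1],[],[],[],1,0,0,0,0,0,0,0⟩]⟩,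
  ⟨(0,1),(1,0),[(-3,-5,-1149),(-1,-3,-675),(-1,-7,-1291),(4,3,2084),(5,4,2676),(-3,4,876)],
   [⟨[],[1],[0,0,3],[],1,3,0,0,0,0,2,0⟩,⟨[],[0,1],[0,0,1],[],1,1,0,0,0,0,2,0⟩,⟨[],[0,1],[0,4],[0,0,0,1],1,1,4,0,0,0,2,3⟩,⟨[0,0,0,1],[],[],[],1,0,0,0,0,0,0,0⟩,⟨[0,0,0,0,1],[],[],[],1,0,0,0,0,0,0,0⟩,⟨[0,0,0,0,0,1],[],[],[],1,0,0,0,0,0,0,0⟩]⟩,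
  ⟨(-1,0),(0,-1),[(-3,-5,-1149),(-1,-3,-675),(-1,-7,-1291),(139,12,34400),(15,2,3883),(11,2,2983),(-3,4,876)],
   [⟨[1],[],[],[],1,0,0,0,0,0,0,0⟩,⟨[0,1],[],[],[],1,0,0,0,0,0,0,0⟩,⟨[0,0,1],[],[],[],1,0,0,0,0,0,0,0⟩,⟨[],[0,0,0,0,3],[0,0,0,0,28],[0,0,16],1,12,112,0,0,0,15,16⟩,⟨[],[0,0,0,0,1],[0,0,0,7],[0,0,3],2,4,21,0,0,0,5,3⟩,⟨[],[0,0,0,0,0,1],[0,0,0,7],[0,0,3],2,4,21,0,0,0,-3,3⟩,⟨[0,0,0,0,0,1],[],[],[],1,0,0,0,0,0,0,0⟩]⟩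
]

def last : Pt × Pt × Cert := ((0,1),(1,0),⟨[0,0,0,0,0,1668],[0,0,0,0,0,0,6116],[0,9387,65],[0,0,0,68],0,18348,9452,0,0,0,-24464,816⟩)

theorem chain_ok : chainOK 225 last (tri 746) steps := by decide +kernel

theorem kill (N : ℕ) : Kill (T (746 * N)) 11 (225 * N + 1) :=
  kill_T_of_chain chain_ok N

end Vale.Agent.Lib.P279.R11
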