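import Vale.Agent.Lib.P279.Table.R11
import Vale.Agent.Lib.P279.Table.R12
import Vale.Agent.Lib.P279.Table.R13
import Vale.Agent.Lib.P279.Table.R14
import Vale.Agent.Lib.P279.Table.R15
import Vale.Agent.Lib.P279.Table.R16
import Vale.Agent.Lib.P279.Table.R17
import Vale.Agent.Lib.P279.Table.R18
import Vale.Agent.Lib.P279.Table.R19
import Vale.Agent.Lib.P279.Table.R20
import Vale.Agent.Lib.P279.Table.R21
import Vale.Agent.Lib.P279.Table.R22
import Vale.Agent.Lib.P279.Table.R23
import Vale.Agent.Lib.P279.Table.R24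
import Vale.Agent.Lib.P279.Table.R25
import Vale.Agent.Lib.P279.Table.R26
import Vale.Agent.Lib.P279.Table.R27
import Vale.Agent.Lib.P279.Table.R28
import Vale.Agent.Lib.P279.Table.R29
import Vale.Agent.Lib.P279.Table.R30
import Vale.Agent.Lib.P279.Table.R31
import Vale.Agent.Lib.P279.Table.R32
import Vale.Agent.Lib.P279.Table.R33
import Vale.Agent.Lib.P279.Table.R34
import Vale.Agent.Lib.P279.Table.R35
import Vale.Agent.Lib.P279.Table.R36
import Vale.Agent.Lib.P279.Table.R37
import Vale.Agent.Lib.P279.Table.R38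
import Vale.Agent.Lib.P279.Table.R39
import Vale.Agent.Lib.P279.Table.R40
import Vale.Agent.Lib.P279.Table.R41
import Vale.Agent.Lib.P279.Table.R42
import Vale.Agent.Lib.P279.Table.R43
import Vale.Agent.Lib.P279.Table.R44
import Vale.Agent.Lib.P279.Table.R45
import Vale.Agent.Lib.P279.Table.R46
import Vale.Agent.Lib.P279.Table.R47
import Vale.Agent.Lib.P279.Table.R48
import Vale.Agent.Lib.P279.Table.R49
import Vale.Agent.Lib.P279.Table.R50
import Vale.Agent.Lib.P279.Table.R51
import Vale.Agent.Lib.P279.Table.R52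
import Vale.Agent.Lib.P279.Table.R53
import Vale.Agent.Lib.P279.Table.R54
import Vale.Agent.Lib.P279.Table.R55
import Vale.Agent.Lib.P279.Table.R56
import Vale.Agent.Lib.P279.Table.R57
import Vale.Agent.Lib.P279.Table.R58
import Vale.Agent.Lib.P279.Table.R59
import Vale.Agent.Lib.P279.Table.R60
import Vale.Agent.Lib.P279.Uniform

namespace Vale.Agent.Lib.P279

/-- the kills for all `r` in the range, in quadratic form with loss `1/50`. -/
theorem uniform_table (r : ℕ) (h1 : 11 ≤ r) (h2 : r ≤ 60) :
    ∃ p q : ℕ, 0 < q ∧ (50 * r - 1) * q ^ 2 ≤ 50 * p ^ 2 ∧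
      ∀ N : ℕ, Kill (T (p * N)) r (q * N + 1) := by
  interval_cases r
  · exact ⟨66313, 20000, by norm_num, by norm_num, R11.kill⟩
  · exact ⟨346283, 100000, by norm_num, by norm_num, R12.kill⟩
  · exact ⟨360465, 100000, by norm_num, by norm_num, R13.kill⟩
  · exact ⟨373964, 100000, by norm_num, by norm_num, R14.kill⟩
  · exact ⟨387194, 100000, by norm_num, by norm_num, R15.kill⟩
  · exact ⟨399919, 100000, by norm_num, by norm_num, R16.kill⟩
  · exact ⟨412099, 100000, by norm_num, by norm_num, R17.kill⟩
  · exact ⟨424151, 100000, by norm_num, by norm_num, R18.kill⟩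
  · exact ⟨435744, 100000, by norm_num, by norm_num, R19.kill⟩
  · exact ⟨447054, 100000, by norm_num, by norm_num, R20.kill⟩
  · exact ⟨458118, 100000, by norm_num, by norm_num, R21.kill⟩
  · exact ⟨468872, 100000, by norm_num, by norm_num, R22.kill⟩
  · exact ⟨479434, 100000, by norm_num, by norm_num, R23.kill⟩
  · exact ⟨489752, 100000, by norm_num, by norm_num, R24.kill⟩
  · exact ⟨499801, 100000, by norm_num, by norm_num, R25.kill⟩
  · exact ⟨509777, 100000, by norm_num, by norm_num, R26.kill⟩
  · exact ⟨519477, 100000, by norm_num, by norm_num, R27.kill⟩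
  · exact ⟨529015, 100000, by norm_num, by norm_num, R28.kill⟩
  · exact ⟨538398, 100000, by norm_num, by norm_num, R29.kill⟩
  · exact ⟨547606, 100000, by norm_num, by norm_num, R30.kill⟩
  · exact ⟨556598, 100000, by norm_num, by norm_num, R31.kill⟩
  · exact ⟨565510, 100000, by norm_num, by norm_num, R32.kill⟩
  · exact ⟨574284, 100000, by norm_num, by norm_num, R33.kill⟩
  · exact ⟨582925, 100000, by norm_num, by norm_num, R34.kill⟩
  · exact ⟨591440, 100000, by norm_num, by norm_num, R35.kill⟩
  · exact ⟨599835, 100000, by norm_num, by norm_num, R36.kill⟩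
  · exact ⟨608113, 100000, by norm_num, by norm_num, R37.kill⟩
  · exact ⟨616280, 100000, by norm_num, by norm_num, R38.kill⟩
  · exact ⟨624341, 100000, by norm_num, by norm_num, R39.kill⟩
  · exact ⟨632299, 100000, by norm_num, by norm_num, R40.kill⟩
  · exact ⟨640158, 100000, by norm_num, by norm_num, R41.kill⟩
  · exact ⟨647921, 100000, by norm_num, by norm_num, R42.kill⟩
  · exact ⟨655593, 100000, by norm_num, by norm_num, R43.kill⟩
  · exact ⟨663175, 100000, by norm_num, by norm_num, R44.kill⟩
  · exact ⟨670673, 100000, by norm_num, by norm_num, R45.kill⟩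
  · exact ⟨678087, 100000, by norm_num, by norm_num, R46.kill⟩
  · exact ⟨685421, 100000, by norm_num, by norm_num, R47.kill⟩
  · exact ⟨692677, 100000, by norm_num, by norm_num, R48.kill⟩
  · exact ⟨699858, 100000, by norm_num, by norm_num, R49.kill⟩
  · exact ⟨706967, 100000, by norm_num, by norm_num, R50.kill⟩
  · exact ⟨714004, 100000, by norm_num, by norm_num, R51.kill⟩
  · exact ⟨720973, 100000, by norm_num, by norm_num, R52.kill⟩
  · exact ⟨727875, 100000, by norm_num, by norm_num, R53.kill⟩
  · exact ⟨734712, 100000, by norm_num, by norm_num, R54.kill⟩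
  · exact ⟨741486, 100000, by norm_num, by norm_num, R55.kill⟩
  · exact ⟨748199, 100000, by norm_num, by norm_num, R56.kill⟩
  · exact ⟨754852, 100000, by norm_num, by norm_num, R57.kill⟩
  · exact ⟨761447, 100000, by norm_num, by norm_num, R58.kill⟩
  · exact ⟨767986, 100000, by norm_num, by norm_num, R59.kill⟩
  · exact ⟨774469, 100000, by norm_num, by norm_num, R60.kill⟩

end Vale.Agent.Lib.P279
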